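import Mathlib

/-! # P097 / H123 / Elln : the coefficients of `(1 + Y)^{1/2}` -/

set_option linter.all false

open Finset

namespace Vale.Agent.P097.H123.Elln

/-- coefficients of `(1 + Y)^{1/2}` -/
noncomputable def be : ℕ → ℝ
  | 0 => 1
  | (n + 1) => be n * (1 / 2 - n) / (n + 1)

theorem be_zero : be 0 = 1 := rfl

theorem be_one : be 1 = 1 / 2 := by
  simp [be]

theorem be_succ (n : ℕ) : be (n + 1) * (n + 1) = be n * (1 / 2 - n) := by
  rw [be]
  field_simp

theorem be_abs (n : ℕ) : |be n| ≤ 1 := by
  induction n with
  | zero => simp [be]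
  | succ n ih =>
    rw [be, abs_div, abs_mul]
    have h1 : |(1 / 2 - (n : ℝ))| ≤ |((n : ℝ) + 1)| := by
      rw [abs_of_pos (by positivity : (0 : ℝ) < (n : ℝ) + 1), abs_le]
      constructor <;> linarith [(Nat.cast_nonneg n : (0 : ℝ) ≤ n)]
    have h2 : 0 < |((n : ℝ) + 1)| := abs_pos.2 (by positivity)
    rw [div_le_one h2]
    calc |be n| * |1 / 2 - (n : ℝ)| ≤ 1 * |((n : ℝ) + 1)| :=
          mul_le_mul ih h1 (abs_nonneg _) zero_le_one
      _ = _ := one_mul _

/-- the power series `(1 + Y)^{1/2}` -/
noncomputable def BS : PowerSeries ℝ := PowerSeries.mk be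

theorem BS_ode : (1 + PowerSeries.X) * PowerSeries.derivative ℝ BS = PowerSeries.C (1 / 2) * BS := by
  ext n
  rw [add_mul, one_mul, map_add, PowerSeries.coeff_C_mul, BS, PowerSeries.coeff_derivative,
    PowerSeries.coeff_mk, PowerSeries.coeff_mk, be_succ]
  rcases n with _ | n
  · simp
    ring
  · rw [PowerSeries.coeff_succ_X_mul, PowerSeries.coeff_derivative, PowerSeries.coeff_mk]
    push_cast
    ring

theorem BS_sq : BS ^ 2 = 1 + PowerSeries.X := by
  set S := BS ^ 2 with hS
  have h1 : (1 + PowerSeries.X) * PowerSeries.derivative ℝ S = S := by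
    have e : PowerSeries.derivative ℝ S = 2 * BS * PowerSeries.derivative ℝ BS := by
      rw [hS, pow_two, Derivation.leibniz, smul_eq_mul]
      ring
    have e2 : (PowerSeries.C (1 / 2) : PowerSeries ℝ) * 2 = 1 := by
      rw [show (2 : PowerSeries ℝ) = PowerSeries.C 2 from (map_ofNat PowerSeries.C 2).symm, ← map_mul]
      norm_num
    rw [e, hS]
    linear_combination (2 * BS) * BS_ode + BS ^ 2 * e2
  have h2 : ∀ n, PowerSeries.coeff (n + 1) S * ((n : ℝ) + 1) + (n : ℝ) * PowerSeries.coeff n S =
      PowerSeries.coeff n S := by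
    intro n
    have e := congrArg (PowerSeries.coeff n) h1
    rw [add_mul, one_mul, map_add, PowerSeries.coeff_derivative] at e
    rcases n with _ | n
    · simpa using e
    · rw [PowerSeries.coeff_succ_X_mul, PowerSeries.coeff_derivative] at e
      push_cast at e ⊢
      linear_combination e
  have h0 : PowerSeries.coeff 0 S = 1 := by
    rw [hS, pow_two, PowerSeries.coeff_mul]
    simp [BS, be]
  have h3 : ∀ n, PowerSeries.coeff (n + 2) S = 0 := by
    intro n
    induction n with
    | zero =>
      have := h2 1
      push_cast at this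
      have h5 : PowerSeries.coeff (1 + 1) S * (1 + 1) = 0 := by linear_combination this
      simpa using h5
    | succ n ih =>
      have := h2 (n + 2)
      rw [ih, mul_zero, add_zero] at this
      have h5 : ((n + 2 : ℕ) : ℝ) + 1 ≠ 0 := by positivity
      exact (mul_eq_zero.1 this).resolve_right h5
  have h4 : PowerSeries.coeff 1 S = 1 := by
    have := h2 0
    simpa [h0] using this
  ext n
  rcases n with _ | _ | n
  · rw [h0]
    simp
  · simp only [zero_add]
    rw [h4]
    simp [PowerSeries.coeff_one, PowerSeries.coeff_X]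
  · rw [h3]
    simp [PowerSeries.coeff_one, PowerSeries.coeff_X]

theorem be_conv (n : ℕ) : ∑ ij ∈ HasAntidiagonal.antidiagonal n, be ij.1 * be ij.2 =
    if n = 0 then 1 else if n = 1 then 1 else 0 := by
  have h := congrArg (PowerSeries.coeff n) BS_sq
  rw [pow_two, PowerSeries.coeff_mul] at h
  simp only [BS, PowerSeries.coeff_mk] at h
  rw [h, map_add, PowerSeries.coeff_one, PowerSeries.coeff_X]
  rcases n with _ | _ | n <;> simp

/-- uniqueness of the formal square root -/
theorem sqrt_unique {c : ℕ → ℂ} {b : ℂ} (h0 : c 0 = 1)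
    (h : (PowerSeries.mk c) ^ 2 = 1 + PowerSeries.C b * PowerSeries.X ^ 2) (k : ℕ) :
    c (2 * k) = (be k : ℂ) * b ^ k ∧ c (2 * k + 1) = 0 := by
  set G : PowerSeries ℂ := PowerSeries.mk fun n => if Even n then (be (n / 2) : ℂ) * b ^ (n / 2) else 0
    with hG
  have hG2 : G ^ 2 = 1 + PowerSeries.C b * PowerSeries.X ^ 2 := by
    -- substitute `b X^2` in `BS`
    have e : G = PowerSeries.mk fun n => if Even n then (be (n / 2) : ℂ) * b ^ (n / 2) else 0 := hG
    ext n
    rw [pow_two, PowerSeries.coeff_mul, e]
    simp only [PowerSeries.coeff_mk]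
    rw [map_add, PowerSeries.coeff_one, PowerSeries.coeff_C_mul, PowerSeries.coeff_X_pow]
    rcases Nat.even_or_odd n with hn | hn
    · obtain ⟨m, rfl⟩ := hn
      have hm : m + m = 2 * m := by ring
      have key : ∑ x ∈ HasAntidiagonal.antidiagonal (m + m),
          ((if Even x.1 then (be (x.1 / 2) : ℂ) * b ^ (x.1 / 2) else 0) *
            (if Even x.2 then (be (x.2 / 2) : ℂ) * b ^ (x.2 / 2) else 0)) =
          ∑ ij ∈ HasAntidiagonal.antidiagonal m, ((be ij.1 * be ij.2 : ℝ) : ℂ) * b ^ m := by
        symm
        refine Finset.sum_of_injOn (fun ij => (2 * ij.1, 2 * ij.2)) ?_ ?_ ?_ ?_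
        · intro x _ y _ hxy
          simp only [Prod.mk.injEq] at hxy
          ext <;> omega
        · intro x hx
          have := HasAntidiagonal.mem_antidiagonal.1 (Finset.mem_coe.1 hx)
          apply Finset.mem_coe.2
          apply HasAntidiagonal.mem_antidiagonal.2
          simp only
          omega
        · intro x hx hnx
          have h1 := HasAntidiagonal.mem_antidiagonal.1 hx
          by_cases hev : Even x.1
          · exfalso
            apply hnx
            obtain ⟨i, hi⟩ := hev
            refine ⟨(i, m - i), ?_, ?_⟩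
            · apply Finset.mem_coe.2
              apply HasAntidiagonal.mem_antidiagonal.2
              simp only
              omega
            · ext <;> simp only <;> omega
          · rw [if_neg hev, zero_mul]
        · intro x hx
          have h1 := HasAntidiagonal.mem_antidiagonal.1 hx
          simp only
          rw [if_pos (even_two_mul _), if_pos (even_two_mul _)]
          rw [Nat.mul_div_cancel_left _ two_pos, Nat.mul_div_cancel_left _ two_pos, ← h1, pow_add]
          push_cast
          ring
      rw [key, ← Finset.sum_mul, ← Complex.ofReal_sum, be_conv]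
      rcases m with _ | _ | m
      · simp
      · simp
      · have a1 : m + 1 + 1 + (m + 1 + 1) ≠ 0 := by omega
        have a2 : m + 1 + 1 + (m + 1 + 1) ≠ 2 := by omega
        have a3 : m + 1 + 1 ≠ 1 := by omega
        simp [a1, a2, a3]
    · have a1 : n ≠ 0 := by rintro rfl; simp at hn
      have a2 : n ≠ 2 := by rintro rfl; revert hn; decide
      rw [if_neg a1, if_neg a2, mul_zero, add_zero]
      refine Finset.sum_eq_zero fun x hx => ?_
      have h1 := HasAntidiagonal.mem_antidiagonal.1 hx
      by_cases hev : Even x.1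
      · have : ¬ Even x.2 := by
          intro h2
          rw [← h1] at hn
          exact (Nat.not_odd_iff_even.2 (hev.add h2)) hn
        rw [if_neg this, mul_zero]
      · rw [if_neg hev, zero_mul]
  have h2 : (PowerSeries.mk c - G) * (PowerSeries.mk c + G) = 0 := by
    linear_combination h - hG2
  have h3 : PowerSeries.mk c + G ≠ 0 := by
    intro h4
    have := congrArg (PowerSeries.coeff 0) h4
    rw [map_add, PowerSeries.coeff_mk, h0, hG, PowerSeries.coeff_mk, map_zero] at this
    simp [be] at this
  have h4 : PowerSeries.mk c = G := sub_eq_zero.1 ((mul_eq_zero.1 h2).resolve_right h3)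
  constructor
  · have := congrArg (PowerSeries.coeff (2 * k)) h4
    rw [PowerSeries.coeff_mk, hG, PowerSeries.coeff_mk, if_pos (even_two_mul _),
      Nat.mul_div_cancel_left _ two_pos] at this
    exact this
  · have := congrArg (PowerSeries.coeff (2 * k + 1)) h4
    rw [PowerSeries.coeff_mk, hG, PowerSeries.coeff_mk, if_neg (by
      rw [Nat.not_even_iff_odd]; exact ⟨k, rfl⟩)] at this
    exact this

end Vale.Agent.P097.H123.Elln
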