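import Vale.Agent.P097.Bdl.B1
import Vale.Agent.P097.H123.Elln.Beta

/-! # P097 / H123 / Elln : the Fourier modes of `|1 + q e^{2ix}|` -/

set_option linter.all false

open Finset Complex Filter MeasureTheory
open scoped Topology ComplexConjugate

namespace Vale.Agent.P097.H123.Elln

open Vale.Agent.P097 Vale.Agent.P097.Reg

/-- `A_l (t) = ∑_j β_{l+j} β_j t^j` -/
noncomputable def AA (l : ℕ) (t : ℝ) : ℝ := ∑' j, be (l + j) * be j * t ^ j

/-- `(1 + y)^{1/2}` -/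
noncomputable def Gf (y : ℂ) : ℂ := ∑' i, (be i : ℂ) * y ^ i

theorem summ_norm {y : ℂ} (hy : ‖y‖ < 1) : Summable fun i => ‖(be i : ℂ) * y ^ i‖ := by
  refine Summable.of_nonneg_of_le (fun i => norm_nonneg _) (fun i => ?_)
    (summable_geometric_of_lt_one (norm_nonneg y) hy)
  rw [norm_mul, norm_pow, Complex.norm_real, Real.norm_eq_abs]
  calc |be i| * ‖y‖ ^ i ≤ 1 * ‖y‖ ^ i :=
        mul_le_mul_of_nonneg_right (be_abs i) (pow_nonneg (norm_nonneg _) _)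
    _ = _ := one_mul _

theorem Gf_sq {y : ℂ} (hy : ‖y‖ < 1) : Gf y * Gf y = 1 + y := by
  unfold Gf
  rw [tsum_mul_tsum_eq_tsum_sum_antidiagonal_of_summable_norm (summ_norm hy) (summ_norm hy)]
  have e : ∀ n, ∑ kl ∈ HasAntidiagonal.antidiagonal n, (be kl.1 : ℂ) * y ^ kl.1 * ((be kl.2 : ℂ) * y ^ kl.2) =
      (((if n = 0 then 1 else if n = 1 then 1 else 0 : ℝ)) : ℂ) * y ^ n := by
    intro n
    rw [← be_conv n, Complex.ofReal_sum, Finset.sum_mul]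
    refine Finset.sum_congr rfl fun x hx => ?_
    have h1 := HasAntidiagonal.mem_antidiagonal.1 hx
    rw [← h1, pow_add]
    push_cast
    ring
  simp only [e]
  rw [tsum_eq_sum (s := Finset.range 2)]
  · simp [Finset.sum_range_succ]
  · intro n hn
    have hn' : ¬ n < 2 := by simpa using hn
    rw [if_neg (by omega), if_neg (by omega)]
    simp

theorem conj_Gf (y : ℂ) : conj (Gf y) = Gf (conj y) := by
  unfold Gf
  rw [Complex.conj_tsum]
  refine tsum_congr fun i => ?_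
  rw [map_mul, map_pow, Complex.conj_ofReal]

theorem norm_one_add {y : ℂ} (hy : ‖y‖ < 1) : ((‖1 + y‖ : ℝ) : ℂ) = Gf y * Gf (conj y) := by
  rw [← conj_Gf, Complex.mul_conj, ← Gf_sq hy, norm_mul, Complex.normSq_eq_norm_sq, pow_two]

theorem hasSum_norm {y : ℂ} (hy : ‖y‖ < 1) :
    HasSum (fun p : ℕ × ℕ => ((be p.1 : ℂ) * y ^ p.1) * ((be p.2 : ℂ) * (conj y) ^ p.2))
      ((‖1 + y‖ : ℝ) : ℂ) := by
  rw [norm_one_add hy]
  have hy' : ‖conj y‖ < 1 := by rwa [Complex.norm_conj]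
  have h := summable_mul_of_summable_norm (summ_norm hy) (summ_norm hy')
  have h2 := h.hasSum
  have h3 := tsum_mul_tsum_of_summable_norm (summ_norm hy) (summ_norm hy')
  unfold Gf
  rw [h3]
  exact h2

theorem int_exp (k : ℤ) : ∫ x in (0 : ℝ)..(2 * Real.pi), exp (I * k * x) =
    if k = 0 then ((2 * Real.pi : ℝ) : ℂ) else 0 := by
  by_cases hk : k = 0
  · simp [hk]
  · rw [if_neg hk]
    have hc : (I * k : ℂ) ≠ 0 := mul_ne_zero I_ne_zero (by exact_mod_cast hk)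
    rw [integral_exp_mul_complex hc]
    have h1 := R4.exp_two_pi (-k)
    have h2 : (-(I * ((-k : ℤ) : ℂ) * ((2 * Real.pi : ℝ) : ℂ))) = I * k * ((2 * Real.pi : ℝ) : ℂ) := by
      push_cast; ring
    rw [h2] at h1
    rw [h1]
    simp

/-- the general term -/
noncomputable def tm (q : ℂ) (m : ℤ) (p : ℕ × ℕ) (x : ℝ) : ℂ :=
  ((be p.1 : ℂ) * (be p.2 : ℂ) * q ^ p.1 * (conj q) ^ p.2) *
    exp (I * ((2 * (p.1 : ℤ) - 2 * (p.2 : ℤ) - m : ℤ) : ℂ) * x)

theorem hs_congr {ι : Type*} {f g : ι → ℂ} {a : ℂ} (h : HasSum f a)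
    (e : ∀ i, g i = f i) : HasSum g a := by
  rwa [funext e]

theorem conj_exp2 (x : ℝ) : conj (exp (2 * I * x)) = exp (-(2 * I * x)) := by
  rw [← Complex.exp_conj]
  congr 1
  rw [map_mul, map_mul, Complex.conj_I, Complex.conj_ofReal, show conj (2 : ℂ) = 2 from map_ofNat _ 2]
  ring

theorem hasSum_tm {q : ℂ} (hq : ‖q‖ < 1) (m : ℤ) (x : ℝ) :
    HasSum (fun p => tm q m p x) (((‖1 + q * exp (2 * I * x)‖ : ℝ) : ℂ) * exp (-(I * m * x))) := by
  have hy : ‖q * exp (2 * I * x)‖ < 1 := by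
    rw [norm_mul]
    have : ‖exp (2 * I * x)‖ = 1 := by
      rw [show (2 * I * x : ℂ) = ((2 * x : ℝ) : ℂ) * I by push_cast; ring]
      exact Complex.norm_exp_ofReal_mul_I _
    rw [this, mul_one]
    exact hq
  have h := (hasSum_norm hy).mul_right (exp (-(I * m * x)))
  refine hs_congr h ?_
  intro p
  unfold tm
  rw [map_mul, conj_exp2, mul_pow, mul_pow, ← Complex.exp_nat_mul, ← Complex.exp_nat_mul]
  have : exp (I * ((2 * (p.1 : ℤ) - 2 * (p.2 : ℤ) - m : ℤ) : ℂ) * x) =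
      exp (p.1 * (2 * I * x)) * exp (p.2 * -(2 * I * x)) * exp (-(I * m * x)) := by
    rw [← Complex.exp_add, ← Complex.exp_add]
    congr 1
    push_cast
    ring
  rw [this]
  ring

theorem norm_tm {q : ℂ} (m : ℤ) (p : ℕ × ℕ) (x : ℝ) : ‖tm q m p x‖ ≤ ‖q‖ ^ p.1 * ‖q‖ ^ p.2 := by
  unfold tm
  have h1 : ‖exp (I * ((2 * (p.1 : ℤ) - 2 * (p.2 : ℤ) - m : ℤ) : ℂ) * x)‖ = 1 := by
    rw [show (I * ((2 * (p.1 : ℤ) - 2 * (p.2 : ℤ) - m : ℤ) : ℂ) * x : ℂ) =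
      (((2 * (p.1 : ℤ) - 2 * (p.2 : ℤ) - m : ℤ) * x : ℝ) : ℂ) * I by push_cast; ring]
    exact Complex.norm_exp_ofReal_mul_I _
  rw [norm_mul, h1, mul_one, norm_mul, norm_mul, norm_mul, norm_pow, norm_pow, Complex.norm_conj,
    Complex.norm_real, Complex.norm_real, Real.norm_eq_abs, Real.norm_eq_abs]
  have h2 : |be p.1| * |be p.2| ≤ 1 := by
    calc |be p.1| * |be p.2| ≤ 1 * 1 := mul_le_mul (be_abs _) (be_abs _) (abs_nonneg _) zero_le_one
      _ = 1 := one_mul 1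
  calc |be p.1| * |be p.2| * ‖q‖ ^ p.1 * ‖q‖ ^ p.2 = (|be p.1| * |be p.2|) * (‖q‖ ^ p.1 * ‖q‖ ^ p.2) := by ring
    _ ≤ 1 * (‖q‖ ^ p.1 * ‖q‖ ^ p.2) := mul_le_mul_of_nonneg_right h2 (by positivity)
    _ = _ := one_mul _

theorem summ_q {q : ℂ} (hq : ‖q‖ < 1) : Summable fun p : ℕ × ℕ => ‖q‖ ^ p.1 * ‖q‖ ^ p.2 := by
  have h1 : Summable fun i => ‖‖q‖ ^ i‖ := by
    simpa using summable_geometric_of_lt_one (norm_nonneg q) hq
  exact summable_mul_of_summable_norm h1 h1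

theorem int_tm (q : ℂ) (m : ℤ) (p : ℕ × ℕ) : ∫ x in (0 : ℝ)..(2 * Real.pi), tm q m p x =
    ((be p.1 : ℂ) * (be p.2 : ℂ) * q ^ p.1 * (conj q) ^ p.2) *
      (if 2 * (p.1 : ℤ) - 2 * (p.2 : ℤ) - m = 0 then ((2 * Real.pi : ℝ) : ℂ) else 0) := by
  unfold tm
  rw [intervalIntegral.integral_const_mul, int_exp]

theorem hasSum_cf {q : ℂ} (hq : ‖q‖ < 1) (m : ℤ) :
    HasSum (fun p : ℕ × ℕ => ((be p.1 : ℂ) * (be p.2 : ℂ) * q ^ p.1 * (conj q) ^ p.2) *
      (if 2 * (p.1 : ℤ) - 2 * (p.2 : ℤ) - m = 0 then (1 : ℂ) else 0))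
      (R4.cf (fun x => ‖1 + q * exp (2 * I * x)‖) m) := by
  have h : HasSum (fun p => ∫ x in (0 : ℝ)..(2 * Real.pi), tm q m p x)
      (∫ x in (0 : ℝ)..(2 * Real.pi), ((‖1 + q * exp (2 * I * x)‖ : ℝ) : ℂ) * exp (-(I * m * x))) := by
    refine intervalIntegral.hasSum_integral_of_dominated_convergence
      (fun p _ => ‖q‖ ^ p.1 * ‖q‖ ^ p.2) ?_ ?_ ?_ ?_ ?_
    · intro p
      apply Continuous.aestronglyMeasurable
      unfold tm
      fun_prop
    · intro p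
      exact Filter.Eventually.of_forall fun x _ => norm_tm m p x
    · exact Filter.Eventually.of_forall fun x _ => summ_q hq
    · exact intervalIntegrable_const
    · exact Filter.Eventually.of_forall fun x _ => hasSum_tm hq m x
  have h2 := h.mul_left (((2 * Real.pi : ℝ) : ℂ)⁻¹)
  unfold R4.cf
  refine hs_congr h2 ?_
  intro p
  rw [int_tm]
  have hpi : ((2 * Real.pi : ℝ) : ℂ) ≠ 0 := by
    have := Real.pi_pos
    exact_mod_cast (by positivity : (2 * Real.pi : ℝ) ≠ 0)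
  split_ifs
  · field_simp
  · simp

theorem cf_even {q : ℂ} (hq : ‖q‖ < 1) (l : ℕ) :
    R4.cf (fun x => ‖1 + q * exp (2 * I * x)‖) ((2 * l : ℕ) : ℤ) = q ^ l * (AA l (‖q‖ ^ 2) : ℂ) := by
  have h := (hasSum_cf hq ((2 * l : ℕ) : ℤ)).tsum_eq
  rw [← h]
  have hinj : Function.Injective (fun j : ℕ => ((l + j, j) : ℕ × ℕ)) := by
    intro a b hab
    simpa using hab
  rw [← hinj.tsum_eq]
  · unfold AA
    rw [Complex.ofReal_tsum, ← tsum_mul_left]
    refine tsum_congr fun j => ?_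
    have e : (2 * ((l + j : ℕ) : ℤ) - 2 * (j : ℤ) - ((2 * l : ℕ) : ℤ)) = 0 := by push_cast; ring
    simp only
    rw [if_pos e, pow_add]
    have e2 : q ^ j * (conj q) ^ j = ((‖q‖ : ℂ) ^ 2) ^ j := by
      rw [← mul_pow, Complex.mul_conj, Complex.normSq_eq_norm_sq]
      push_cast
      rfl
    push_cast
    rw [← e2]
    ring
  · intro p hp
    rw [Function.mem_support] at hp
    by_cases h1 : 2 * (p.1 : ℤ) - 2 * (p.2 : ℤ) - ((2 * l : ℕ) : ℤ) = 0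
    · refine ⟨p.2, ?_⟩
      ext
      · simp only
        push_cast at h1
        omega
      · rfl
    · rw [if_neg h1, mul_zero] at hp
      exact absurd rfl hp

theorem cf_odd {q : ℂ} (hq : ‖q‖ < 1) (l : ℕ) :
    R4.cf (fun x => ‖1 + q * exp (2 * I * x)‖) ((2 * l + 1 : ℕ) : ℤ) = 0 := by
  have h := (hasSum_cf hq ((2 * l + 1 : ℕ) : ℤ)).tsum_eq
  rw [← h]
  convert tsum_zero with p
  rw [if_neg, mul_zero]
  push_cast
  omega

end Vale.Agent.P097.H123.Elln
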