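import Vale.Agent.P097.Disc.FDefs
import Vale.Agent.P097.H407.Red
import Vale.Agent.P097.H407.Rat2
import Vale.Agent.P097.H123.Elln.Modes

/-! # P097 / H123 / Elln : the ellipses with given Fourier modes of index at most two -/

set_option linter.all false

open Finset Filter MeasureTheory
open scoped Topology ComplexConjugate

namespace Vale.Agent.P097.H123.Elln

open Vale.Agent.P097 Vale.Agent.P097.FD Vale.Agent.P097.TOP Vale.Agent.P097.H407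
open Vale.Agent.P097.Reg

theorem abs_term (l j : ℕ) {t : ℝ} (h0 : 0 ≤ t) : ‖be (l + j) * be j * t ^ j‖ ≤ t ^ j := by
  rw [Real.norm_eq_abs, abs_mul, abs_mul, abs_of_nonneg (pow_nonneg h0 j)]
  have h2 : |be (l + j)| * |be j| ≤ 1 := by
    calc |be (l + j)| * |be j| ≤ 1 * 1 := mul_le_mul (be_abs _) (be_abs _) (abs_nonneg _) zero_le_one
      _ = 1 := one_mul 1
  calc |be (l + j)| * |be j| * t ^ j ≤ 1 * t ^ j := mul_le_mul_of_nonneg_right h2 (pow_nonneg h0 j)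
    _ = _ := one_mul _

theorem AA_summ (l : ℕ) {t : ℝ} (h0 : 0 ≤ t) (h1 : t < 1) :
    Summable fun j => be (l + j) * be j * t ^ j :=
  Summable.of_norm_bounded (summable_geometric_of_lt_one h0 h1) fun j => abs_term l j h0

theorem AA_near (l : ℕ) {t : ℝ} (h0 : 0 ≤ t) (h1 : t ≤ 1 / 16) :
    |AA l t - be l| ≤ 16 / 15 * t := by
  have h1' : t < 1 := by linarith
  unfold AA
  rw [(AA_summ l h0 h1').tsum_eq_zero_add]
  simp only [add_zero, pow_zero, mul_one, be_zero]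
  rw [add_sub_cancel_left]
  have h2 : HasSum (fun j => t ^ (j + 1)) (t * (1 - t)⁻¹) := by
    have := (hasSum_geometric_of_lt_one h0 h1').mul_left t
    refine this.congr_fun ?_
    intro j
    ring
  have h3 := tsum_of_norm_bounded h2 (f := fun j => be (l + (j + 1)) * be (j + 1) * t ^ (j + 1))
    (fun j => abs_term l (j + 1) h0)
  rw [Real.norm_eq_abs] at h3
  refine h3.trans ?_
  rw [mul_comm]
  refine mul_le_mul_of_nonneg_right ?_ h0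
  rw [inv_le_comm₀ (by linarith) (by norm_num)]
  linarith

theorem AA_zero (l : ℕ) : AA l 0 = be l := by
  have := AA_near l (le_refl (0 : ℝ)) (by norm_num)
  rw [mul_zero] at this
  exact sub_eq_zero.1 (abs_nonpos_iff.1 this)

theorem AA_zero_ge {t : ℝ} (h0 : 0 ≤ t) (h1 : t ≤ 1 / 16) : 1 ≤ AA 0 t := by
  have h := (AA_summ 0 h0 (by linarith : t < 1)).le_tsum 0 (fun j _ => by
    rw [zero_add]
    exact mul_nonneg (mul_self_nonneg _) (pow_nonneg h0 _))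
  unfold AA
  simpa [be_zero] using h

theorem AA_zero_le {t : ℝ} (h0 : 0 ≤ t) (h1 : t ≤ 1 / 16) : AA 0 t ≤ 16 / 15 := by
  have h := AA_near 0 h0 h1
  rw [be_zero] at h
  have := (abs_le.1 h).2
  linarith

theorem AA_abs (l : ℕ) {t : ℝ} (h0 : 0 ≤ t) (h1 : t ≤ 1 / 16) : |AA l t| ≤ 16 / 15 := by
  have h2 : HasSum (fun j => t ^ j) (1 - t)⁻¹ := hasSum_geometric_of_lt_one h0 (by linarith)
  have h3 := tsum_of_norm_bounded h2 (f := fun j => be (l + j) * be j * t ^ j)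
    (fun j => abs_term l j h0)
  rw [Real.norm_eq_abs] at h3
  refine h3.trans ?_
  rw [inv_le_comm₀ (by linarith) (by norm_num)]
  linarith

theorem AA_one_ge {t : ℝ} (h0 : 0 ≤ t) (h1 : t ≤ 1 / 16) : 13 / 30 ≤ AA 1 t := by
  have h := AA_near 1 h0 h1
  rw [be_one] at h
  have := (abs_le.1 h).1
  linarith

theorem AA_cont (l : ℕ) : ContinuousOn (AA l) (Set.Icc 0 (1 / 16)) := by
  unfold AA
  refine continuousOn_tsum (u := fun j => (1 / 16 : ℝ) ^ j) (fun j => by fun_prop)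
    (summable_geometric_of_lt_one (by norm_num) (by norm_num)) ?_
  intro j t ht
  exact (abs_term l j ht.1).trans (pow_le_pow_left₀ ht.1 ht.2 j)

theorem exists_q {a : ℂ} (ha : ‖a‖ ≤ 1 / 16) : ∃ q : ℂ, ‖q‖ ≤ 1 / 4 ∧ ‖q‖ ≤ 3 * ‖a‖ ∧
    q * (AA 1 (‖q‖ ^ 2) : ℂ) = a * (AA 0 (‖q‖ ^ 2) : ℂ) := by
  have hmaps : Set.MapsTo (fun r : ℝ => r ^ 2) (Set.Icc 0 (1 / 4)) (Set.Icc 0 (1 / 16)) := by
    intro r hr
    refine ⟨sq_nonneg r, ?_⟩
    nlinarith [hr.1, hr.2]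
  have hc : ContinuousOn (fun r : ℝ => r * AA 1 (r ^ 2) - ‖a‖ * AA 0 (r ^ 2)) (Set.Icc 0 (1 / 4)) := by
    have h1 := (AA_cont 1).comp (f := fun r : ℝ => r ^ 2) (by fun_prop) hmaps
    have h2 := (AA_cont 0).comp (f := fun r : ℝ => r ^ 2) (by fun_prop) hmaps
    exact (continuousOn_id.mul h1).sub (continuousOn_const.mul h2)
  have h := intermediate_value_Icc (by norm_num : (0 : ℝ) ≤ 1 / 4) hc
  have h0 : (0 : ℝ) ∈ (fun r : ℝ => r * AA 1 (r ^ 2) - ‖a‖ * AA 0 (r ^ 2)) '' Set.Icc 0 (1 / 4) := by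
    apply h
    constructor
    · rw [zero_mul, zero_sub, show (0 : ℝ) ^ 2 = 0 by norm_num]
      have := mul_nonneg (norm_nonneg a) (zero_le_one.trans (AA_zero_ge (le_refl (0 : ℝ)) (by norm_num)))
      linarith
    · have h1 := AA_one_ge (t := (1 / 4 : ℝ) ^ 2) (by norm_num) (by norm_num)
      have h2 := AA_zero_le (t := (1 / 4 : ℝ) ^ 2) (by norm_num) (by norm_num)
      have h3 := AA_zero_ge (t := (1 / 4 : ℝ) ^ 2) (by norm_num) (by norm_num)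
      nlinarith [norm_nonneg a]
  obtain ⟨r, hr, hr2⟩ := h0
  simp only at hr2
  have hm := hmaps hr
  have h1 := AA_one_ge hm.1 hm.2
  have h2 := AA_zero_le hm.1 hm.2
  have h3 := AA_zero_ge hm.1 hm.2
  simp only at h1 h2 h3
  have hr3 : r ≤ 3 * ‖a‖ := by
    nlinarith [hr.1, norm_nonneg a, mul_nonneg hr.1 (sub_nonneg.2 h1),
      mul_nonneg (norm_nonneg a) (sub_nonneg.2 h2)]
  by_cases ha0 : a = 0
  · exact ⟨0, by simp, by simp, by simp [ha0]⟩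
  · have hna : ‖a‖ ≠ 0 := norm_ne_zero_iff.2 ha0
    have hq : ‖(r : ℂ) * (a / (‖a‖ : ℂ))‖ = r := by
      rw [norm_mul, norm_div, Complex.norm_real, Complex.norm_real, norm_norm, div_self hna, mul_one,
        Real.norm_of_nonneg hr.1]
    refine ⟨(r : ℂ) * (a / (‖a‖ : ℂ)), ?_, ?_, ?_⟩
    · rw [hq]; exact hr.2
    · rw [hq]; exact hr3
    · rw [hq]
      have h4 : (r : ℂ) * (AA 1 (r ^ 2) : ℂ) = (‖a‖ : ℂ) * (AA 0 (r ^ 2) : ℂ) := by
        exact_mod_cast sub_eq_zero.1 hr2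
      have h5 : (‖a‖ : ℂ) ≠ 0 := by exact_mod_cast hna
      calc (r : ℂ) * (a / (‖a‖ : ℂ)) * (AA 1 (r ^ 2) : ℂ) = (a / (‖a‖ : ℂ)) * ((r : ℂ) * (AA 1 (r ^ 2) : ℂ)) := by ring
        _ = (a / (‖a‖ : ℂ)) * ((‖a‖ : ℂ) * (AA 0 (r ^ 2) : ℂ)) := by rw [h4]
        _ = _ := by field_simp

open Classical in
/-- the parameter -/
noncomputable def qf (a : ℂ) : ℂ := if h : ‖a‖ ≤ 1 / 16 then Classical.choose (exists_q h) else 0

theorem qf_spec {a : ℂ} (ha : ‖a‖ ≤ 1 / 16) : ‖qf a‖ ≤ 1 / 4 ∧ ‖qf a‖ ≤ 3 * ‖a‖ ∧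
    qf a * (AA 1 (‖qf a‖ ^ 2) : ℂ) = a * (AA 0 (‖qf a‖ ^ 2) : ℂ) := by
  unfold qf
  rw [dif_pos ha]
  exact Classical.choose_spec (exists_q ha)

/-- the table -/
noncomputable def Ef (a : ℂ) (x : ℝ) : ℝ :=
  ‖1 + qf a * Complex.exp (2 * Complex.I * x)‖ / AA 0 (‖qf a‖ ^ 2)

theorem cf_div (f : ℝ → ℝ) (A : ℝ) (m : ℤ) : R4.cf (fun x => f x / A) m = R4.cf f m / (A : ℂ) := by
  unfold R4.cf
  have e : ∀ x : ℝ, ((f x / A : ℝ) : ℂ) * Complex.exp (-(Complex.I * m * x)) =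
      ((f x : ℂ) * Complex.exp (-(Complex.I * m * x))) / (A : ℂ) := by
    intro x
    push_cast
    ring
  simp only [e]
  rw [intervalIntegral.integral_div]
  ring

theorem sq_le {a : ℂ} (ha : ‖a‖ ≤ 1 / 16) : 0 ≤ ‖qf a‖ ^ 2 ∧ ‖qf a‖ ^ 2 ≤ 1 / 16 := by
  obtain ⟨h1, -, -⟩ := qf_spec ha
  refine ⟨sq_nonneg _, ?_⟩
  nlinarith [norm_nonneg (qf a)]

theorem cf_Ef_even {a : ℂ} (ha : ‖a‖ ≤ 1 / 16) (l : ℕ) : R4.cf (Ef a) ((2 * l : ℕ) : ℤ) =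
    qf a ^ l * (AA l (‖qf a‖ ^ 2) : ℂ) / (AA 0 (‖qf a‖ ^ 2) : ℂ) := by
  obtain ⟨h1, -, -⟩ := qf_spec ha
  unfold Ef
  rw [cf_div, cf_even (by linarith)]

theorem cf_Ef_odd {a : ℂ} (ha : ‖a‖ ≤ 1 / 16) (l : ℕ) : R4.cf (Ef a) ((2 * l + 1 : ℕ) : ℤ) = 0 := by
  obtain ⟨h1, -, -⟩ := qf_spec ha
  unfold Ef
  rw [cf_div, cf_odd (by linarith), zero_div]

/-- the parameters of the ellipse -/
noncomputable def wf (a : ℂ) : Fin 5 → ℝ :=
  ![0, 0, (1 + ‖qf a‖ ^ 2) / AA 0 (‖qf a‖ ^ 2) ^ 2, 2 * (qf a).re / AA 0 (‖qf a‖ ^ 2) ^ 2,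
    -2 * (qf a).im / AA 0 (‖qf a‖ ^ 2) ^ 2]

theorem norm_sq_eq (q : ℂ) (x : ℝ) : ‖1 + q * Complex.exp (2 * Complex.I * x)‖ ^ 2 =
    1 + ‖q‖ ^ 2 + 2 * q.re * Real.cos (2 * x) - 2 * q.im * Real.sin (2 * x) := by
  have e : Complex.exp (2 * Complex.I * x) = ⟨Real.cos (2 * x), Real.sin (2 * x)⟩ := by
    rw [show (2 * Complex.I * x : ℂ) = ((2 * x : ℝ) : ℂ) * Complex.I by push_cast; ring]
    apply Complex.ext
    · rw [Complex.exp_ofReal_mul_I_re]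
    · rw [Complex.exp_ofReal_mul_I_im]
  rw [e, ← Complex.normSq_eq_norm_sq, ← Complex.normSq_eq_norm_sq, Complex.normSq_apply,
    Complex.normSq_apply]
  simp only [Complex.add_re, Complex.add_im, Complex.mul_re, Complex.mul_im, Complex.one_re,
    Complex.one_im]
  have := Real.sin_sq_add_cos_sq (2 * x)
  linear_combination (q.re * q.re + q.im * q.im) * this

theorem Ef_eq {a : ℂ} (ha : ‖a‖ ≤ 1 / 16) : Ef a = EF (wf a) := by
  funext x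
  obtain ⟨h1, h2⟩ := sq_le ha
  have hA := AA_zero_ge h1 h2
  unfold EF EQ wf Ef
  simp only [Matrix.cons_val_zero, Matrix.cons_val_one, Matrix.cons_val, zero_mul, zero_add]
  have e : (1 + ‖qf a‖ ^ 2) / AA 0 (‖qf a‖ ^ 2) ^ 2 + 2 * (qf a).re / AA 0 (‖qf a‖ ^ 2) ^ 2 * Real.cos (2 * x) +
        -2 * (qf a).im / AA 0 (‖qf a‖ ^ 2) ^ 2 * Real.sin (2 * x) =
      (‖1 + qf a * Complex.exp (2 * Complex.I * x)‖ / AA 0 (‖qf a‖ ^ 2)) ^ 2 := by
    rw [div_pow, norm_sq_eq]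
    ring
  rw [e, Real.sqrt_sq]
  exact div_nonneg (norm_nonneg _) (by linarith)

/-- the box of parameters -/
def KB : Set (Fin 5 → ℝ) := Set.Icc ![0, 0, 4 / 5, -1 / 2, -1 / 2] ![0, 0, 6 / 5, 1 / 2, 1 / 2]

theorem KB_comp : IsCompact KB := isCompact_Icc

theorem KB_sub : KB ⊆ EP := by
  intro w hw
  obtain ⟨h1, h2⟩ := hw
  have a2 := h1 2
  have a3 := h1 3
  have a4 := h1 4
  have b3 := h2 3
  have b4 := h2 4
  simp only [Matrix.cons_val] at a2 a3 a4 b3 b4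
  show √(w 3 ^ 2 + w 4 ^ 2) < w 2
  rw [Real.sqrt_lt' (by linarith)]
  nlinarith

theorem wf_mem {a : ℂ} (ha : ‖a‖ ≤ 1 / 16) : wf a ∈ KB := by
  obtain ⟨h1, h2⟩ := sq_le ha
  obtain ⟨hq, -, -⟩ := qf_spec ha
  have hA := AA_zero_ge h1 h2
  have hA2 := AA_zero_le h1 h2
  have hA3 : 0 < AA 0 (‖qf a‖ ^ 2) ^ 2 := by positivity
  have hA4 : 1 ≤ AA 0 (‖qf a‖ ^ 2) ^ 2 := by nlinarith
  have hA5 : AA 0 (‖qf a‖ ^ 2) ^ 2 ≤ (16 / 15) ^ 2 := by nlinarith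
  have hre := (abs_le.1 ((Complex.abs_re_le_norm (qf a)).trans hq))
  have him := (abs_le.1 ((Complex.abs_im_le_norm (qf a)).trans hq))
  constructor
  · intro i
    fin_cases i
    · simp [wf]
    · simp [wf]
    · show (4 / 5 : ℝ) ≤ (1 + ‖qf a‖ ^ 2) / AA 0 (‖qf a‖ ^ 2) ^ 2
      rw [le_div_iff₀ hA3]
      nlinarith
    · show (-1 / 2 : ℝ) ≤ 2 * (qf a).re / AA 0 (‖qf a‖ ^ 2) ^ 2
      rw [le_div_iff₀ hA3]
      nlinarith [hre.1]
    · show (-1 / 2 : ℝ) ≤ -2 * (qf a).im / AA 0 (‖qf a‖ ^ 2) ^ 2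
      rw [le_div_iff₀ hA3]
      nlinarith [him.2]
  · intro i
    fin_cases i
    · simp [wf]
    · simp [wf]
    · show (1 + ‖qf a‖ ^ 2) / AA 0 (‖qf a‖ ^ 2) ^ 2 ≤ (6 / 5 : ℝ)
      rw [div_le_iff₀ hA3]
      nlinarith
    · show 2 * (qf a).re / AA 0 (‖qf a‖ ^ 2) ^ 2 ≤ (1 / 2 : ℝ)
      rw [div_le_iff₀ hA3]
      nlinarith [hre.2]
    · show -2 * (qf a).im / AA 0 (‖qf a‖ ^ 2) ^ 2 ≤ (1 / 2 : ℝ)
      rw [div_le_iff₀ hA3]
      nlinarith [him.1]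

theorem cf_zero' {a : ℂ} (ha : ‖a‖ ≤ 1 / 16) : R4.cf (Ef a) 0 = 1 := by
  obtain ⟨h1, h2⟩ := sq_le ha
  have hA := AA_zero_ge h1 h2
  have h := cf_Ef_even ha 0
  have hne : (AA 0 (‖qf a‖ ^ 2) : ℂ) ≠ 0 := by exact_mod_cast (by linarith : AA 0 (‖qf a‖ ^ 2) ≠ 0)
  rw [pow_zero, one_mul, div_self hne] at h
  simpa using h

theorem cf_one' {a : ℂ} (ha : ‖a‖ ≤ 1 / 16) : R4.cf (Ef a) 1 = 0 := by
  have h := cf_Ef_odd ha 0
  simpa using h

theorem cf_two' {a : ℂ} (ha : ‖a‖ ≤ 1 / 16) : R4.cf (Ef a) 2 = a := by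
  obtain ⟨h1, h2⟩ := sq_le ha
  have hA := AA_zero_ge h1 h2
  have h := cf_Ef_even ha 1
  have hne : (AA 0 (‖qf a‖ ^ 2) : ℂ) ≠ 0 := by exact_mod_cast (by linarith : AA 0 (‖qf a‖ ^ 2) ≠ 0)
  obtain ⟨-, -, h3⟩ := qf_spec ha
  rw [pow_one, h3, mul_div_assoc, div_self hne, mul_one] at h
  simpa using h

theorem cf_bd {a : ℂ} (ha : ‖a‖ ≤ 1 / 16) (k : ℕ) (hk : 2 ≤ k) :
    ‖R4.cf (Ef a) k‖ ≤ (2 * Real.sqrt ‖a‖) ^ k := by
  obtain ⟨h1, h2⟩ := sq_le ha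
  obtain ⟨-, hq, -⟩ := qf_spec ha
  have hA := AA_zero_ge h1 h2
  rcases Nat.even_or_odd' k with ⟨l, rfl | rfl⟩
  · rw [cf_Ef_even ha l]
    have hl : 1 ≤ l := by omega
    have e1 : (2 * Real.sqrt ‖a‖) ^ (2 * l) = 4 ^ l * ‖a‖ ^ l := by
      rw [pow_mul, mul_pow, Real.sq_sqrt (norm_nonneg a), ← mul_pow]
      norm_num
    rw [e1, norm_div, norm_mul, norm_pow, Complex.norm_real, Complex.norm_real, Real.norm_eq_abs,
      Real.norm_eq_abs, abs_of_pos (by linarith : 0 < AA 0 (‖qf a‖ ^ 2)), div_le_iff₀ (by linarith)]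
    have h4 := AA_abs l h1 h2
    have h5 : ‖qf a‖ ^ l ≤ 3 ^ l * ‖a‖ ^ l := by
      rw [← mul_pow]
      exact pow_le_pow_left₀ (norm_nonneg _) hq l
    have h6 : (3 : ℝ) ^ l * (4 / 3) ≤ 4 ^ l := by
      obtain ⟨n, rfl⟩ : ∃ n, l = n + 1 := ⟨l - 1, by omega⟩
      rw [pow_succ, pow_succ]
      have : (3 : ℝ) ^ n ≤ 4 ^ n := pow_le_pow_left₀ (by norm_num) (by norm_num) n
      nlinarith
    have h7 : 0 ≤ ‖a‖ ^ l := pow_nonneg (norm_nonneg a) l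
    have h8 : (0 : ℝ) < 3 ^ l := by positivity
    calc ‖qf a‖ ^ l * |AA l (‖qf a‖ ^ 2)| ≤ (3 ^ l * ‖a‖ ^ l) * (16 / 15) :=
          mul_le_mul h5 h4 (abs_nonneg _) (mul_nonneg h8.le h7)
      _ ≤ 4 ^ l * ‖a‖ ^ l := by nlinarith [mul_nonneg h8.le h7, mul_nonneg (sub_nonneg.2 h6) h7]
      _ ≤ 4 ^ l * ‖a‖ ^ l * AA 0 (‖qf a‖ ^ 2) := by
          nlinarith [mul_nonneg (pow_nonneg (by norm_num : (0 : ℝ) ≤ 4) l) h7]
  · rw [cf_Ef_odd ha l, norm_zero]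
    positivity

theorem lims {a : ℕ → ℂ} {δ : ℕ → ℝ} {c : ℕ → ℂ} {b : ℂ} (hδ : ∀ m, 0 < δ m)
    (hδ0 : Tendsto δ atTop (𝓝 0))
    (ha : Tendsto (fun m => a m / (δ m : ℂ) ^ 2) atTop (𝓝 (c 2))) (h0 : c 0 = 1)
    (hc : (PowerSeries.mk c) ^ 2 = 1 + PowerSeries.C b * PowerSeries.X ^ 2) (k : ℕ) :
    Tendsto (fun m => R4.cf (Ef (a m)) k / (δ m : ℂ) ^ k) atTop (𝓝 (c k)) := by
  have hb : b = 2 * c 2 := by
    have := (sqrt_unique h0 hc 1).1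
    rw [mul_one, be_one, pow_one] at this
    rw [this]
    push_cast
    ring
  have hδc : Tendsto (fun m => (δ m : ℂ)) atTop (𝓝 0) := by
    have := (Complex.continuous_ofReal.tendsto 0).comp hδ0
    rw [Complex.ofReal_zero] at this
    exact this
  have ha0 : Tendsto a atTop (𝓝 0) := by
    have h1 := ha.mul (hδc.pow 2)
    have h2 : (fun m => a m / (δ m : ℂ) ^ 2 * (δ m : ℂ) ^ 2) = a := by
      funext m
      have : (δ m : ℂ) ≠ 0 := by exact_mod_cast (hδ m).ne'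
      field_simp
    rw [h2] at h1
    simpa using h1
  have hev : ∀ᶠ m in atTop, ‖a m‖ ≤ 1 / 16 := by
    have := ha0.norm
    rw [norm_zero] at this
    exact this.eventually_le_const (by norm_num)
  have hq0 : Tendsto (fun m => ‖qf (a m)‖ ^ 2) atTop (𝓝 0) := by
    have h1 : Tendsto (fun m => (3 * ‖a m‖) ^ 2) atTop (𝓝 0) := by
      have := ((ha0.norm).const_mul 3).pow 2
      simpa using this
    refine tendsto_of_tendsto_of_tendsto_of_le_of_le' tendsto_const_nhds h1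
      (Eventually.of_forall fun m => sq_nonneg _) ?_
    filter_upwards [hev] with m hm
    exact pow_le_pow_left₀ (norm_nonneg _) (qf_spec hm).2.1 2
  have hAl : ∀ l, Tendsto (fun m => (AA l (‖qf (a m)‖ ^ 2) : ℂ)) atTop (𝓝 (be l : ℂ)) := by
    intro l
    have h1 : Tendsto (fun m => AA l (‖qf (a m)‖ ^ 2)) atTop (𝓝 (be l)) := by
      rw [tendsto_iff_norm_sub_tendsto_zero]
      have h2 : Tendsto (fun m => 16 / 15 * ‖qf (a m)‖ ^ 2) atTop (𝓝 0) := by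
        simpa using hq0.const_mul (16 / 15)
      refine tendsto_of_tendsto_of_tendsto_of_le_of_le' tendsto_const_nhds h2
        (Eventually.of_forall fun m => norm_nonneg _) ?_
      filter_upwards [hev] with m hm
      exact AA_near l (sq_le hm).1 (sq_le hm).2
    exact (Complex.continuous_ofReal.tendsto _).comp h1
  have hqb : Tendsto (fun m => qf (a m) / (δ m : ℂ) ^ 2) atTop (𝓝 b) := by
    have h1 := (ha.mul (hAl 0)).div (hAl 1) (by rw [be_one]; norm_num)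
    rw [be_zero, be_one] at h1
    have h2 : c 2 * ((1 : ℝ) : ℂ) / ((1 / 2 : ℝ) : ℂ) = b := by
      rw [hb]; push_cast; ring
    rw [h2] at h1
    refine h1.congr' ?_
    filter_upwards [hev] with m hm
    have h3 := (qf_spec hm).2.2
    have h4 := AA_one_ge (sq_le hm).1 (sq_le hm).2
    have h5 : (AA 1 (‖qf (a m)‖ ^ 2) : ℂ) ≠ 0 := by
      exact_mod_cast (by linarith : AA 1 (‖qf (a m)‖ ^ 2) ≠ 0)
    have h6 : (δ m : ℂ) ≠ 0 := by exact_mod_cast (hδ m).ne'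
    simp only [Pi.div_apply]
    rw [div_mul_eq_mul_div, ← h3]
    field_simp
  rcases Nat.even_or_odd' k with ⟨l, rfl | rfl⟩
  · rw [(sqrt_unique h0 hc l).1]
    have h1 := ((hqb.pow l).mul (hAl l)).div (hAl 0) (by rw [be_zero]; norm_num)
    rw [be_zero] at h1
    have h2 : b ^ l * (be l : ℂ) / ((1 : ℝ) : ℂ) = (be l : ℂ) * b ^ l := by push_cast; ring
    rw [h2] at h1
    refine h1.congr' ?_
    filter_upwards [hev] with m hm
    rw [cf_Ef_even hm l]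
    simp only [Pi.div_apply, Pi.mul_apply, Pi.pow_apply]
    rw [pow_mul, div_pow]
    ring
  · rw [(sqrt_unique h0 hc l).2]
    refine tendsto_const_nhds.congr' ?_
    filter_upwards [hev] with m hm
    rw [cf_Ef_odd hm l, zero_div]

theorem elln : Disc.ELLN := by
  obtain ⟨η, β, M, hη, hβ, hM, H⟩ := stELLC KB KB_sub KB_comp
  refine ⟨η, β, M, 1 / 16, 2, Ef, hη, hβ, hM, by norm_num, by norm_num, ?_, ?_⟩
  · intro a ha
    have hw := wf_mem ha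
    obtain ⟨h1, h2⟩ := H (wf a) hw
    rw [← Ef_eq ha] at h1 h2
    refine ⟨⟨wf a, KB_sub hw, Ef_eq ha⟩, h1, ?_, cf_zero' ha, cf_one' ha, cf_two' ha, cf_bd ha⟩
    exact rsn_of_collar (by rw [Ef_eq ha]; exact smoothTable_EF (KB_sub hw)) hη h2
  · intro a δ c b hδ hδ0 ha h0 hc k
    exact lims hδ hδ0 ha h0 hc k

end Vale.Agent.P097.H123.Elln
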